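import Mathlib
import Crest.Agent.N221.Hu.Alg

-- ▼ part N221/Hu/SB
section

/-!
Row 221, block Hu: families of subspaces of class `C^n` (`n = 0`: continuous, `n = ∞`: smooth).
* `Pj n F U`: a `C^n` projector onto `F z` on `U`; `SmAt n F z`: the same near `z`;
* `Gen n F z`: near `z`, `F` is the span of finitely many `C^n` sections (rank is lsc);
* `Cut n F z`: near `z`, `F` is the kernel of a `C^n` family of linear maps (rank is usc);
* `Gen`, `Cut` families are `SmAt` at a point of every nonempty open set.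
-/

set_option autoImplicit false
set_option linter.unusedSectionVars false
set_option linter.unusedVariables false

open Set Filter Topology Module
open scoped ContDiff

noncomputable section

namespace Crest.Agent.N221.SB

variable {P W W' W'' : Type} [NormedAddCommGroup P] [NormedSpace ℝ P]
  [NormedAddCommGroup W] [NormedSpace ℝ W] [FiniteDimensional ℝ W]
  [NormedAddCommGroup W'] [NormedSpace ℝ W'] [FiniteDimensional ℝ W']
  [NormedAddCommGroup W''] [NormedSpace ℝ W''] [FiniteDimensional ℝ W'']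
  {n : WithTop ℕ∞} {F G : P → Submodule ℝ W} {U : Set P} {z : P}

/-- `f` is `C^n` on an open neighbourhood of `z` -/
def Cn {E : Type} [NormedAddCommGroup E] [NormedSpace ℝ E] (n : WithTop ℕ∞) (f : P → E) (z : P) :
    Prop := ∀ᶠ y in 𝓝 z, ContDiffAt ℝ n f y

/-- `p` is a projector onto `K` -/
def IsPj (p : W →L[ℝ] W) (K : Submodule ℝ W) : Prop := (∀ w, p w ∈ K) ∧ ∀ w ∈ K, p w = w

/-- a family of subspaces that is `C^n` near `z` -/
def SmAt (n : WithTop ℕ∞) (F : P → Submodule ℝ W) (z : P) : Prop :=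
  ∃ p : P → W →L[ℝ] W, Cn n p z ∧ ∀ᶠ y in 𝓝 z, IsPj (p y) (F y)

/-- near `z` the family is spanned by finitely many `C^n` sections -/
def Gen (n : WithTop ℕ∞) (F : P → Submodule ℝ W) (z : P) : Prop :=
  ∃ (k : ℕ) (A : P → (Fin k → ℝ) →L[ℝ] W), Cn n A z ∧ ∀ᶠ y in 𝓝 z, F y = (A y).range

/-- near `z` the family is cut out by finitely many `C^n` equations -/
def Cut (n : WithTop ℕ∞) (F : P → Submodule ℝ W) (z : P) : Prop :=
  ∃ (k : ℕ) (A : P → W →L[ℝ] (Fin k → ℝ)), Cn n A z ∧ ∀ᶠ y in 𝓝 z, F y = (A y).ker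

section Cn
variable {E E' : Type} [NormedAddCommGroup E] [NormedSpace ℝ E] [NormedAddCommGroup E']
  [NormedSpace ℝ E'] {f g : P → E}

lemma Cn.at (h : Cn n f z) : ContDiffAt ℝ n f z := h.self_of_nhds
lemma Cn.ev (h : Cn n f z) : ∀ᶠ y in 𝓝 z, Cn n f y := h.eventually_nhds
lemma Cn.cont (h : Cn n f z) : ContinuousAt f z := h.at.continuousAt
lemma Cn.of_on (h : ContDiffOn ℝ n f U) (hU : IsOpen U) (hz : z ∈ U) : Cn n f z := by
  filter_upwards [hU.mem_nhds hz] with y hy using h.contDiffAt (hU.mem_nhds hy)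
lemma Cn.const (c : E) : Cn n (fun _ : P => c) z := Eventually.of_forall fun _ => contDiffAt_const
lemma Cn.of_le {m : WithTop ℕ∞} (h : Cn n f z) (hm : m ≤ n) : Cn m f z :=
  h.mono fun _ h => h.of_le hm
lemma Cn.congr (h : Cn n f z) (e : g =ᶠ[𝓝 z] f) : Cn n g z := by
  filter_upwards [h, e.eventually_nhds] with y h1 h2 using h1.congr_of_eventuallyEq h2
end Cn

lemma IsPj.range {p : W →L[ℝ] W} {K : Submodule ℝ W} (h : IsPj p K) : p.range = K :=
  le_antisymm (by rintro _ ⟨w, rfl⟩; exact h.1 w) fun w hw => ⟨w, h.2 w hw⟩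

lemma IsPj.ker {p : W →L[ℝ] W} {K : Submodule ℝ W} (h : IsPj p K) : (1 - p).ker = K := by
  ext w
  have : w ∈ (1 - p).ker ↔ w - p w = 0 := Iff.rfl
  rw [this, sub_eq_zero]
  exact ⟨fun e => e ▸ h.1 w, fun hw => (h.2 w hw).symm⟩

lemma IsPj.idem {p : W →L[ℝ] W} {K : Submodule ℝ W} (h : IsPj p K) (w : W) : p (p w) = p w :=
  h.2 _ (h.1 w)

lemma exists_isPj (K : Submodule ℝ W) : ∃ p : W →L[ℝ] W, IsPj p K := by
  obtain ⟨C, hC⟩ := K.exists_isCompl
  refine ⟨LinearMap.toContinuousLinearMap (K.subtype ∘ₗ K.projectionOnto C hC), fun w => ?_,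
    fun w hw => ?_⟩
  · simp
  · simpa using congrArg Subtype.val (Submodule.projectionOnto_apply_left hC ⟨w, hw⟩)

/-- the inverse of an invertible family -/
lemma inv {g : P → W →L[ℝ] W} (h : Cn n g z) (hz : IsUnit (g z)) :
    Cn n (fun y => Ring.inverse (g y)) z ∧ ∀ᶠ y in 𝓝 z, IsUnit (g y) := by
  have := FiniteDimensional.complete ℝ W
  have h1 : ∀ᶠ y in 𝓝 z, IsUnit (g y) := h.cont.eventually (Units.isOpen.mem_nhds hz)
  refine ⟨?_, h1⟩
  filter_upwards [h, h1] with y h2 h3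
  obtain ⟨u, hu⟩ := h3
  exact (hu ▸ contDiffAt_ringInverse ℝ u : ContDiffAt ℝ n Ring.inverse (g y)).comp y h2

lemma inv_apply {g : W →L[ℝ] W} (h : IsUnit g) (w : W) : Ring.inverse g (g w) = w := by
  exact congrArg (fun f : W →L[ℝ] W => f w) (Ring.inverse_mul_cancel _ h)


lemma finrank_map_unit {g : W →L[ℝ] W} (h : IsUnit g) (K : Submodule ℝ W) :
    finrank ℝ (K.map (g : W →ₗ[ℝ] W)) = finrank ℝ K :=
  (Submodule.equivMapOfInjective _ (fun a b e => by
    simpa [inv_apply h] using congrArg (fun w => Ring.inverse g w) e) K).finrank_eq.symm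

/-- a generalized inverse -/
lemma exists_ginv (A : W →L[ℝ] W') : ∃ B : W' →L[ℝ] W, (∀ w, A (B (A w)) = A w) ∧
    ∀ w, B (A (B w)) = B w := by
  obtain ⟨p, hp⟩ := exists_isPj A.range
  obtain ⟨s, hs⟩ := (A : W →ₗ[ℝ] W').rangeRestrict.exists_rightInverse_of_surjective
    (LinearMap.range_rangeRestrict _)
  have h1 : ∀ x : A.range, A (s x) = x := fun x => congrArg Subtype.val (LinearMap.congr_fun hs x)
  let B := LinearMap.toContinuousLinearMap (s ∘ₗ (p : W' →ₗ[ℝ] W').codRestrict _ hp.1)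
  have h2 : ∀ w, A (B w) = p w := fun w => h1 _
  refine ⟨B, fun w => (h2 _).trans (hp.2 _ ⟨w, rfl⟩), fun w => ?_⟩
  rw [h2]
  exact congrArg s (Subtype.ext (hp.idem w))

/-- the normal form of a family of linear maps near `z` -/
lemma normal {A : P → W →L[ℝ] W'} (h : Cn n A z) :
    (∀ᶠ y in 𝓝 z, finrank ℝ (A z).range ≤ finrank ℝ (A y).range) ∧
    ((∀ᶠ y in 𝓝 z, finrank ℝ (A y).range ≤ finrank ℝ (A z).range) →
      SmAt n (fun y => (A y).range) z ∧ SmAt n (fun y => (A y).ker) z) := by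
  obtain ⟨B, h1, h2⟩ := exists_ginv (A z)
  let g : P → W' →L[ℝ] W' := fun y => 1 + (A y - A z) ∘L B
  have hg : Cn n g z := h.mono fun y hy =>
    contDiffAt_const.add ((hy.sub contDiffAt_const).clm_comp contDiffAt_const)
  obtain ⟨hi, hu⟩ := inv hg (by simp [g])
  have e1 : ∀ y w, g y (A z w) = A y (B (A z w)) := fun y w => by simp [g, h1]
  have e2 : ∀ y, (A z).range.map (g y : W' →ₗ[ℝ] W') ≤ (A y).range := by
    rintro y _ ⟨_, ⟨w, rfl⟩, rfl⟩
    exact ⟨_, (e1 y w).symm⟩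
  refine ⟨hu.mono fun y hy => finrank_map_unit hy _ ▸ Submodule.finrank_mono (e2 y), fun hr => ?_⟩
  have e3 : ∀ᶠ y in 𝓝 z, ∀ w, ∃ v, A y w = g y (A z v) := by
    filter_upwards [hu, hr] with y hy hr w
    have := Submodule.eq_of_le_of_finrank_le (e2 y) (by rwa [finrank_map_unit hy])
    obtain ⟨_, ⟨v, rfl⟩, e⟩ := this.ge (⟨w, rfl⟩ : A y w ∈ (A y).range)
    exact ⟨v, e.symm⟩
  refine ⟨⟨fun y => g y ∘L (A z ∘L B) ∘L Ring.inverse (g y), ?_, ?_⟩,
    ⟨fun y => 1 - B ∘L Ring.inverse (g y) ∘L A y, ?_, ?_⟩⟩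
  · filter_upwards [hg, hi] with y a b using a.clm_comp (contDiffAt_const.clm_comp b)
  · filter_upwards [hu, e3] with y hy e3
    refine ⟨fun w => e2 y ⟨_, ⟨_, rfl⟩, rfl⟩, ?_⟩
    rintro _ ⟨w, rfl⟩
    obtain ⟨v, e⟩ := e3 w
    simp [e, inv_apply hy, h1]
  · filter_upwards [h, hi] with y a b
    exact contDiffAt_const.sub (contDiffAt_const.clm_comp (b.clm_comp a))
  · filter_upwards [hu, e3] with y hy e3
    refine ⟨fun w => ?_, fun w hw => ?_⟩
    · obtain ⟨v, e⟩ := e3 w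
      simp [e, inv_apply hy, ← e1]
    · have : A y w = 0 := hw
      simp [this]

lemma SmAt.ev (h : SmAt n F z) : ∀ᶠ y in 𝓝 z, SmAt n F y := by
  obtain ⟨p, h1, h2⟩ := h
  filter_upwards [h1.ev, h2.eventually_nhds] with y a b using ⟨p, a, b⟩

lemma Gen.ev (h : Gen n F z) : ∀ᶠ y in 𝓝 z, Gen n F y := by
  obtain ⟨k, p, h1, h2⟩ := h
  filter_upwards [h1.ev, h2.eventually_nhds] with y a b using ⟨k, p, a, b⟩

lemma Cut.ev (h : Cut n F z) : ∀ᶠ y in 𝓝 z, Cut n F y := by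
  obtain ⟨k, p, h1, h2⟩ := h
  filter_upwards [h1.ev, h2.eventually_nhds] with y a b using ⟨k, p, a, b⟩


lemma SmAt.congr (h : SmAt n F z) (e : ∀ᶠ y in 𝓝 z, G y = F y) : SmAt n G z := by
  obtain ⟨p, h1, h2⟩ := h
  exact ⟨p, h1, by filter_upwards [h2, e] with y a b using b ▸ a⟩

lemma Gen.congr (h : Gen n F z) (e : ∀ᶠ y in 𝓝 z, G y = F y) : Gen n G z := by
  obtain ⟨k, p, h1, h2⟩ := h
  exact ⟨k, p, h1, by filter_upwards [h2, e] with y a b using b ▸ a⟩

lemma Cut.congr (h : Cut n F z) (e : ∀ᶠ y in 𝓝 z, G y = F y) : Cut n G z := by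
  obtain ⟨k, p, h1, h2⟩ := h
  exact ⟨k, p, h1, by filter_upwards [h2, e] with y a b using b ▸ a⟩

lemma SmAt.of_le {m : WithTop ℕ∞} (h : SmAt n F z) (hm : m ≤ n) : SmAt m F z := by
  obtain ⟨p, h1, h2⟩ := h
  exact ⟨p, h1.of_le hm, h2⟩

lemma SmAt.const (K : Submodule ℝ W) : SmAt n (fun _ : P => K) z := by
  obtain ⟨p, hp⟩ := exists_isPj K
  exact ⟨fun _ => p, Cn.const p, Eventually.of_forall fun _ => hp⟩

lemma Gen.range {A : P → W' →L[ℝ] W} (h : Cn n A z) : Gen n (fun y => (A y).range) z := by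
  let e := (finBasis ℝ W').equivFunL
  refine ⟨finrank ℝ W', fun y => A y ∘L (e.symm : _ →L[ℝ] W'),
    h.mono fun y a => by exact a.clm_comp contDiffAt_const, Eventually.of_forall fun y => le_antisymm ?_ ?_⟩
  · rintro _ ⟨w, rfl⟩
    exact ⟨e w, by simp⟩
  · rintro _ ⟨w, rfl⟩
    exact ⟨_, rfl⟩

lemma Cut.ker {A : P → W →L[ℝ] W'} (h : Cn n A z) : Cut n (fun y => (A y).ker) z := by
  let e := (finBasis ℝ W').equivFunL
  refine ⟨finrank ℝ W', fun y => (e : W' →L[ℝ] _) ∘L A y,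
    h.mono fun y a => by exact contDiffAt_const.clm_comp a, Eventually.of_forall fun y => ?_⟩
  ext w
  simp

lemma SmAt.gen (h : SmAt n F z) : Gen n F z := by
  obtain ⟨p, h1, h2⟩ := h
  exact (Gen.range h1).congr (h2.mono fun y a => a.range.symm)

lemma SmAt.cut (h : SmAt n F z) : Cut n F z := by
  obtain ⟨p, h1, h2⟩ := h
  exact (Cut.ker (A := fun y => 1 - p y) (h1.mono fun y a => contDiffAt_const.sub a)).congr
    (h2.mono fun y a => a.ker.symm)

lemma Gen.lsc (h : Gen n F z) : ∀ᶠ y in 𝓝 z, finrank ℝ (F z) ≤ finrank ℝ (F y) := by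
  obtain ⟨k, A, h1, h2⟩ := h
  filter_upwards [h2, (normal h1).1] with y a b
  rwa [a, h2.self_of_nhds]

lemma rank_ker (A : W →L[ℝ] W') : finrank ℝ A.range + finrank ℝ A.ker = finrank ℝ W :=
  LinearMap.finrank_range_add_finrank_ker _

lemma Cut.usc (h : Cut n F z) : ∀ᶠ y in 𝓝 z, finrank ℝ (F y) ≤ finrank ℝ (F z) := by
  obtain ⟨k, A, h1, h2⟩ := h
  filter_upwards [h2, (normal h1).1] with y a b
  rw [a, h2.self_of_nhds]
  have := rank_ker (A y)
  have := rank_ker (A z)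
  omega

lemma SmAt.rank (h : SmAt n F z) : ∀ᶠ y in 𝓝 z, finrank ℝ (F y) = finrank ℝ (F z) := by
  filter_upwards [h.gen.lsc, h.cut.usc] with y a b using le_antisymm b a

lemma Gen.smAt (h : Gen n F z) (hr : ∀ᶠ y in 𝓝 z, finrank ℝ (F y) ≤ finrank ℝ (F z)) :
    SmAt n F z := by
  obtain ⟨k, A, h1, h2⟩ := h
  refine ((normal h1).2 ?_).1.congr h2
  filter_upwards [h2, hr] with y a b
  rwa [← a, ← h2.self_of_nhds]

lemma Cut.smAt (h : Cut n F z) (hr : ∀ᶠ y in 𝓝 z, finrank ℝ (F z) ≤ finrank ℝ (F y)) :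
    SmAt n F z := by
  obtain ⟨k, A, h1, h2⟩ := h
  refine ((normal h1).2 ?_).2.congr h2
  filter_upwards [h2, hr] with y a b
  rw [a, h2.self_of_nhds] at b
  have := rank_ker (A y)
  have := rank_ker (A z)
  omega

lemma exists_max {α : Type} {s : Set α} (hne : s.Nonempty) (f : α → ℕ) {b : ℕ} (hb : ∀ y, f y ≤ b) :
    ∃ y ∈ s, ∀ x ∈ s, f x ≤ f y := by
  have : (f '' s).Finite := (finite_Iic b).subset (by rintro _ ⟨y, -, rfl⟩; exact hb y)
  obtain ⟨_, ⟨y, hy, rfl⟩, h⟩ := exists_max_image _ id this (hne.image f)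
  exact ⟨y, hy, fun x hx => h _ ⟨x, hx, rfl⟩⟩

lemma exists_min {α : Type} {s : Set α} (hne : s.Nonempty) (f : α → ℕ) :
    ∃ y ∈ s, ∀ x ∈ s, f y ≤ f x :=
  ⟨Function.argminOn f s hne, Function.argminOn_mem f s hne, fun _ hx => Function.argminOn_le f s hx⟩

/-- a generated family is smooth at a point of maximal rank -/
lemma Gen.exists_smAt (hU : IsOpen U) (hne : U.Nonempty) (h : ∀ y ∈ U, Gen n F y) :
    ∃ y ∈ U, SmAt n F y := by
  obtain ⟨y, hy, hm⟩ := exists_max hne (fun y => finrank ℝ (F y)) fun y => (F y).finrank_le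
  exact ⟨y, hy, (h y hy).smAt (by filter_upwards [hU.mem_nhds hy] with x hx using hm x hx)⟩

/-- a family cut out by equations is smooth at a point of minimal rank -/
lemma Cut.exists_smAt (hU : IsOpen U) (hne : U.Nonempty) (h : ∀ y ∈ U, Cut n F y) :
    ∃ y ∈ U, SmAt n F y := by
  obtain ⟨y, hy, hm⟩ := exists_min hne fun y => finrank ℝ (F y)
  exact ⟨y, hy, (h y hy).smAt (by filter_upwards [hU.mem_nhds hy] with x hx using hm x hx)⟩

/-- shrinking: a smaller nonempty open set on which the family is smooth of constant rank -/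
lemma SmAt.shrink (h : SmAt n F z) (hU : IsOpen U) (hz : z ∈ U) :
    ∃ V, IsOpen V ∧ z ∈ V ∧ V ⊆ U ∧ (∀ y ∈ V, finrank ℝ (F y) = finrank ℝ (F z)) ∧
      (∀ y ∈ V, SmAt n F y) ∧ ∃ p : P → W →L[ℝ] W, ContDiffOn ℝ n p V ∧ ∀ y ∈ V, IsPj (p y) (F y) := by
  have h0 := h.rank
  have h' := h.ev
  obtain ⟨p, h1, h2⟩ := h
  obtain ⟨V, a, b, c⟩ := eventually_nhds_iff.1
    (h0.and (h'.and (h1.and (h2.and (hU.mem_nhds hz)))))
  exact ⟨V, b, c, fun y hy => (a y hy).2.2.2.2, fun y hy => (a y hy).1, fun y hy => (a y hy).2.1, p,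
    fun y hy => (a y hy).2.2.1.contDiffWithinAt, fun y hy => (a y hy).2.2.2.1⟩

lemma Gen.shrink (hU : IsOpen U) (hne : U.Nonempty) (h : ∀ y ∈ U, Gen n F y) :
    ∃ V, IsOpen V ∧ V.Nonempty ∧ V ⊆ U ∧ ∀ y ∈ V, SmAt n F y := by
  obtain ⟨y, hy, h⟩ := Gen.exists_smAt hU hne h
  obtain ⟨V, a, b, c, -, d, -⟩ := h.shrink hU hy
  exact ⟨V, a, ⟨y, b⟩, c, d⟩

lemma Cut.shrink (hU : IsOpen U) (hne : U.Nonempty) (h : ∀ y ∈ U, Cut n F y) :
    ∃ V, IsOpen V ∧ V.Nonempty ∧ V ⊆ U ∧ ∀ y ∈ V, SmAt n F y := by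
  obtain ⟨y, hy, h⟩ := Cut.exists_smAt hU hne h
  obtain ⟨V, a, b, c, -, d, -⟩ := h.shrink hU hy
  exact ⟨V, a, ⟨y, b⟩, c, d⟩

end Crest.Agent.N221.SB
end
end

-- ▼ part N221/Hu/SB2

/-!
Row 221, block Hu: operations on `C^n` families of subspaces (sums, intersections, images,
annihilators, envelope, radical, stabilisers), sections, closed conditions.
-/

set_option autoImplicit false
set_option linter.unusedSectionVars false
set_option linter.unusedVariables false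
set_option maxSynthPendingDepth 3

open Set Filter Topology Module
open scoped ContDiff

noncomputable section

namespace Crest.Agent.N221.SB

open Hu

variable {P W W' W'' X : Type} [NormedAddCommGroup P] [NormedSpace ℝ P]
  [NormedAddCommGroup W] [NormedSpace ℝ W] [FiniteDimensional ℝ W]
  [NormedAddCommGroup W'] [NormedSpace ℝ W'] [FiniteDimensional ℝ W']
  [NormedAddCommGroup W''] [NormedSpace ℝ W''] [FiniteDimensional ℝ W'']
  [NormedAddCommGroup X] [NormedSpace ℝ X] [FiniteDimensional ℝ X]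
  {n : WithTop ℕ∞} {F G : P → Submodule ℝ W} {F' : P → Submodule ℝ W'}
  {F'' : P → Submodule ℝ W''} {U : Set P} {z : P}


lemma Cn.prodMk {E E' : Type} [NormedAddCommGroup E] [NormedSpace ℝ E] [NormedAddCommGroup E']
    [NormedSpace ℝ E'] {f : P → E} {g : P → E'} (h : Cn n f z) (h' : Cn n g z) :
    Cn n (fun y => (f y, g y)) z := (h.and h').mono fun y a => a.1.prodMk a.2

lemma Cn.comp {A : P → W' →L[ℝ] W''} {B : P → W →L[ℝ] W'} (h : Cn n A z) (h' : Cn n B z) :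
    Cn n (fun y => A y ∘L B y) z := (h.and h').mono fun y a => a.1.clm_comp a.2

lemma Cn.apply {A : P → W →L[ℝ] W'} {s : P → W} (h : Cn n A z) (h' : Cn n s z) :
    Cn n (fun y => A y (s y)) z := (h.and h').mono fun y a => a.1.clm_apply a.2

lemma Cn.one_sub {A : P → W →L[ℝ] W} (h : Cn n A z) : Cn n (fun y => 1 - A y) z :=
  h.mono fun y a => contDiffAt_const.sub a

/-- a family of linear maps is `C^n` when its values are -/
lemma Cn.of_apply {A : P → W →L[ℝ] W'} (h : ∀ w, Cn n (fun y => A y w) z) : Cn n A z := by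
  let b := finBasis ℝ W
  have e : ∀ y, A y = ∑ i, (b.coord i).toContinuousLinearMap.smulRight (A y (b i)) := fun y => by
    ext w
    conv_lhs => rw [← b.sum_repr w, map_sum]
    simp
  filter_upwards [eventually_all.2 fun i => h (b i)] with y a
  rw [funext e]
  exact ContDiffAt.sum fun i _ => contDiffAt_const.smulRight (a i)

lemma Cn.flip {A : P → W →L[ℝ] W' →L[ℝ] W''} (h : Cn n A z) : Cn n (fun y => (A y).flip) z :=
  Cn.of_apply fun v => Cn.of_apply fun w => (h.apply (Cn.const w)).apply (Cn.const v)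

/-- a trilinear family is `C^n` when its values are -/
lemma Cn.of_apply₃ {μ : P → W →L[ℝ] W' →L[ℝ] W'' →L[ℝ] X}
    (h : ∀ w v v', Cn n (fun y => μ y w v v') z) : Cn n μ z :=
  Cn.of_apply fun w => Cn.of_apply fun v => Cn.of_apply fun v' => h w v v'

lemma Cn.prod {A : P → W →L[ℝ] W'} {B : P → W →L[ℝ] W''} (h : Cn n A z) (h' : Cn n B z) :
    Cn n (fun y => (A y).prod (B y)) z :=
  Cn.of_apply fun w => (h.apply (Cn.const w)).prodMk (h'.apply (Cn.const w))

lemma Cn.coprod {A : P → W' →L[ℝ] W} {B : P → W'' →L[ℝ] W} (h : Cn n A z) (h' : Cn n B z) :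
    Cn n (fun y => (A y).coprod (B y)) z :=
  Cn.of_apply fun w => ((h.apply (Cn.const w.1)).and (h'.apply (Cn.const w.2))).mono
    fun y a => a.1.add a.2

/-- change of the base -/
lemma SmAt.pull {Q : Type} [NormedAddCommGroup Q] [NormedSpace ℝ Q] {φ : Q → P} {x : Q}
    (h : SmAt n F (φ x)) (hφ : Cn n φ x) : SmAt n (fun y => F (φ y)) x := by
  obtain ⟨p, h1, h2⟩ := h
  refine ⟨fun y => p (φ y), ?_, hφ.cont.eventually h2⟩
  filter_upwards [hφ, hφ.cont.eventually h1] with y a b using b.comp y a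

lemma Gen.sup (h : Gen n F z) (h' : Gen n G z) : Gen n (fun y => F y ⊔ G y) z := by
  obtain ⟨k, A, h1, h2⟩ := h
  obtain ⟨k', A', h1', h2'⟩ := h'
  refine (Gen.range (h1.coprod h1')).congr ?_
  filter_upwards [h2, h2'] with y a b
  rw [a, b, ContinuousLinearMap.range_coprod]

lemma Cut.inf (h : Cut n F z) (h' : Cut n G z) : Cut n (fun y => F y ⊓ G y) z := by
  obtain ⟨k, A, h1, h2⟩ := h
  obtain ⟨k', A', h1', h2'⟩ := h'
  refine (Cut.ker (h1.prod h1')).congr ?_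
  filter_upwards [h2, h2'] with y a b
  rw [a, b, ContinuousLinearMap.ker_prod]

lemma Gen.map (h : Gen n F z) {B : P → W →L[ℝ] W'} (hB : Cn n B z) :
    Gen n (fun y => (F y).map (B y : W →ₗ[ℝ] W')) z := by
  obtain ⟨k, A, h1, h2⟩ := h
  refine (Gen.range (hB.comp h1)).congr (h2.mono fun y a => ?_)
  rw [a, ← LinearMap.range_comp]; rfl

lemma Cut.comap (h : Cut n F' z) {B : P → W →L[ℝ] W'} (hB : Cn n B z) :
    Cut n (fun y => (F' y).comap (B y : W →ₗ[ℝ] W')) z := by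
  obtain ⟨k, A, h1, h2⟩ := h
  refine (Cut.ker (h1.comp hB)).congr (h2.mono fun y a => ?_)
  rw [a, ← LinearMap.ker_comp]; rfl


/-- spans of finite families of sections -/
lemma Gen.span {ι : Type} [Finite ι] {s : ι → P → W} (h : ∀ i, Cn n (s i) z) :
    Gen n (fun y => Submodule.span ℝ (Set.range fun i => s i y)) z := by
  classical
  have := Fintype.ofFinite ι
  let A : P → (ι → ℝ) →L[ℝ] W := fun y =>
    ∑ i, (ContinuousLinearMap.proj (R := ℝ) (φ := fun _ : ι => ℝ) i).smulRight (s i y)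
  refine (Gen.range (A := A) ?_).congr (Eventually.of_forall fun y => ?_)
  · filter_upwards [eventually_all.2 h] with y a
    exact ContDiffAt.sum fun i _ => contDiffAt_const.smulRight (a i)
  · ext w
    simp [A, Submodule.mem_span_range_iff_exists_fun]

lemma Gen.exists_span (h : Gen n F z) : ∃ (k : ℕ) (s : Fin k → P → W), (∀ i, Cn n (s i) z) ∧
    ∀ᶠ y in 𝓝 z, F y = Submodule.span ℝ (Set.range fun i => s i y) := by
  obtain ⟨k, A, h1, h2⟩ := h
  refine ⟨k, fun i y => A y (Pi.basisFun ℝ _ i), fun i => h1.apply (Cn.const _),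
    h2.mono fun y a => ?_⟩
  rw [a, LinearMap.range_eq_map, ← (Pi.basisFun ℝ (Fin k)).span_eq, Submodule.map_span,
    ← Set.range_comp]
  rfl

/-- the span of the values of a bilinear family -/
lemma Gen.bil (h : Gen n F z) (h' : Gen n F' z) {μ : P → W →L[ℝ] W' →L[ℝ] W''} (hμ : Cn n μ z) :
    Gen n (fun y => Submodule.span ℝ {w | ∃ a ∈ F y, ∃ v ∈ F' y, μ y a v = w}) z := by
  obtain ⟨k, s, h1, h2⟩ := h.exists_span
  obtain ⟨k', s', h1', h2'⟩ := h'.exists_span
  refine (Gen.span (s := fun (i : Fin k × Fin k') y => μ y (s i.1 y) (s' i.2 y)) fun i =>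
    (hμ.apply (h1 _)).apply (h1' _)).congr ?_
  filter_upwards [h2, h2'] with y a b
  refine le_antisymm (Submodule.span_le.2 ?_) (Submodule.span_mono ?_)
  · rintro _ ⟨u, hu, v, hv, rfl⟩
    rw [a, Submodule.mem_span_range_iff_exists_fun] at hu
    rw [b, Submodule.mem_span_range_iff_exists_fun] at hv
    obtain ⟨c, rfl⟩ := hu
    obtain ⟨c', rfl⟩ := hv
    simp only [map_sum, map_smul, FunLike.coe_sum, Finset.sum_apply,
      FunLike.coe_smul, Pi.smul_apply]
    exact sum_mem fun j _ => Submodule.smul_mem _ _ (sum_mem fun i _ => Submodule.smul_mem _ _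
      (Submodule.subset_span ⟨(i, j), rfl⟩))
  · rintro _ ⟨i, rfl⟩
    exact ⟨_, a ▸ Submodule.subset_span ⟨i.1, rfl⟩, _, b ▸ Submodule.subset_span ⟨i.2, rfl⟩, rfl⟩

/-- `{w | ∀ v ∈ F', μ w v = 0}` -/
lemma Cut.ann (h : Gen n F' z) {μ : P → W →L[ℝ] W' →L[ℝ] W''} (hμ : Cn n μ z)
    (e : ∀ᶠ y in 𝓝 z, ∀ w, w ∈ F y ↔ ∀ v ∈ F' y, μ y w v = 0) : Cut n F z := by
  obtain ⟨k, A, h1, h2⟩ := h
  refine (Cut.ker (A := fun y => ((μ y).flip ∘L A y).flip) (hμ.flip.comp h1).flip).congr ?_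
  filter_upwards [h2, e] with y a b
  ext w
  rw [b, a, LinearMap.mem_ker]
  refine ⟨fun h => ContinuousLinearMap.ext fun c => h _ ⟨c, rfl⟩, ?_⟩
  rintro h _ ⟨c, rfl⟩
  exact congrArg (fun f : _ →L[ℝ] W'' => f c) h

/-- `{w | ∀ v ∈ F', μ w v ∈ F''}`, e.g. the stabiliser of `F'` in a representation -/
lemma Cut.trans (h : Gen n F' z) (h' : Cut n F'' z) {μ : P → W →L[ℝ] W' →L[ℝ] W''} (hμ : Cn n μ z)
    (e : ∀ᶠ y in 𝓝 z, ∀ w, w ∈ F y ↔ ∀ v ∈ F' y, μ y w v ∈ F'' y) : Cut n F z := by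
  obtain ⟨k, A, h1, h2⟩ := h'
  refine Cut.ann h (μ := fun y => ContinuousLinearMap.compL ℝ W' W'' _ (A y) ∘L μ y)
    ((( Cn.const _).apply h1).comp hμ) ?_
  filter_upwards [h2, e] with y a b w
  rw [b, a]; rfl

/-- `{w | ∀ v ∈ F', ∀ v' ∈ F'', μ w v v' = 0}` -/
lemma Cut.ann₂ (h : Gen n F' z) (h' : Gen n F'' z) {μ : P → W →L[ℝ] W' →L[ℝ] W'' →L[ℝ] X}
    (hμ : ∀ w v v', Cn n (fun y => μ y w v v') z)
    (e : ∀ᶠ y in 𝓝 z, ∀ w, w ∈ F y ↔ ∀ v ∈ F' y, ∀ v' ∈ F'' y, μ y w v v' = 0) : Cut n F z := by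
  let K : P → Submodule ℝ (W'' →L[ℝ] X) := fun y =>
    ⨅ v : F'' y, (ContinuousLinearMap.apply ℝ X (v : W'')).ker
  have hK : ∀ y a, a ∈ K y ↔ ∀ v ∈ F'' y, a v = 0 := fun y a => by simp [K]
  refine Cut.trans h (F'' := K) (Cut.ann h' (μ := fun _ => ContinuousLinearMap.id ℝ _)
    (Cn.const _) (Eventually.of_forall hK)) (Cn.of_apply₃ hμ) (e.mono fun y a w => ?_)
  simp only [a, hK]

/-- sections through a given vector -/
lemma SmAt.sec (h : SmAt n F z) {w : W} (hw : w ∈ F z) :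
    ∃ s : P → W, Cn n s z ∧ s z = w ∧ ∀ᶠ y in 𝓝 z, s y ∈ F y := by
  obtain ⟨p, h1, h2⟩ := h
  exact ⟨fun y => p y w, h1.apply (Cn.const w), h2.self_of_nhds.2 w hw, h2.mono fun y a => a.1 w⟩

/-- local trivialisation -/
lemma SmAt.triv (h : SmAt n F z) : ∃ g : P → W →L[ℝ] W, Cn n g z ∧ g z = 1 ∧
    ∀ᶠ y in 𝓝 z, IsUnit (g y) ∧ F y = (F z).map (g y : W →ₗ[ℝ] W) := by
  have hr := h.rank
  obtain ⟨p, h1, h2⟩ := h
  have h0 := h2.self_of_nhds
  have hg : Cn n (fun y => p y ∘L p z + (1 - p z)) z :=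
    (h1.comp (Cn.const (p z))).mono fun y a => a.add contDiffAt_const
  have e : p z ∘L p z + (1 - p z) = 1 := by ext w; simp [h0.idem]
  refine ⟨_, hg, e, ?_⟩
  filter_upwards [hr, h2, (inv hg (by simp only [e]; exact isUnit_one)).2] with y a b c
  refine ⟨c, (Submodule.eq_of_le_of_finrank_le ?_ (by rw [finrank_map_unit c, a])).symm⟩
  rintro _ ⟨w, hw, rfl⟩
  simpa [h0.2 w hw] using b.1 w

/-- an injective frame -/
lemma SmAt.frame (h : SmAt n F z) : ∃ e : P → (Fin (finrank ℝ (F z)) → ℝ) →L[ℝ] W, Cn n e z ∧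
    ∀ᶠ y in 𝓝 z, Function.Injective (e y) ∧ (e y).range = F y := by
  obtain ⟨g, h1, -, h2⟩ := h.triv
  let b := (finBasis ℝ (F z)).equivFunL
  refine ⟨fun y => g y ∘L (F z).subtypeL ∘L (b.symm : _ →L[ℝ] F z), h1.comp (Cn.const _),
    h2.mono fun y a => ⟨fun c c' e => ?_, ?_⟩⟩
  · have := congrArg (fun w => Ring.inverse (g y) w) e
    simpa [inv_apply a.1] using this
  · rw [a.2]
    refine le_antisymm ?_ ?_
    · rintro _ ⟨c, rfl⟩
      exact ⟨_, (b.symm c).2, rfl⟩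
    · rintro _ ⟨w, hw, rfl⟩
      exact ⟨b ⟨w, hw⟩, by simp⟩

/-- membership is a closed condition -/
lemma Cut.mem_of_freq (h : Cut n F z) {s : P → W} (hs : ContinuousAt s z)
    (hf : ∃ᶠ y in 𝓝 z, s y ∈ F y) : s z ∈ F z := by
  obtain ⟨k, A, h1, h2⟩ := h
  have h3 : ContinuousAt (fun y => A y (s y)) z := h1.cont.clm_apply hs
  rw [h2.self_of_nhds]
  exact isClosed_singleton.mem_of_frequently_of_tendsto
    ((hf.and_eventually h2).mono fun y a => by simpa [a.2] using a.1) h3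

/-- a relation `μ F' ⊆ F` that holds on a dense set holds everywhere -/
lemma Cut.map_mem_of_freq (h : Cut n F z) (h' : SmAt n F' z) {μ : P → W' →L[ℝ] W}
    (hμ : ContinuousAt μ z) (hf : ∃ᶠ y in 𝓝 z, ∀ v ∈ F' y, μ y v ∈ F y) :
    ∀ v ∈ F' z, μ z v ∈ F z := fun v hv => by
  obtain ⟨s, h1, rfl, h2⟩ := h'.sec hv
  exact h.mem_of_freq (hμ.clm_apply h1.cont) ((hf.and_eventually h2).mono fun y a => a.1 _ a.2)

section Alg
variable {h : P → Submodule ℝ (W →L[ℝ] W)}

lemma Gen.act (hh : Gen n h z) (hF : Gen n F z) : Gen n (fun y => act (h y) (F y)) z :=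
  hh.bil hF (μ := fun _ => ContinuousLinearMap.id ℝ _) (Cn.const _)

lemma Gen.top : Gen n (fun _ : P => (⊤ : Submodule ℝ W)) z := (SmAt.const ⊤).gen

lemma Gen.pw (hh : Gen n h z) : ∀ k, Gen n (fun y => pw (h y) k) z
  | 0 => Gen.top
  | k + 1 => hh.act (hh.pw k)

lemma Gen.gen {A : P → Subalgebra ℝ (W →L[ℝ] W)} (hA : Gen n (fun y => (A y).toSubmodule) z)
    {p : P → W →L[ℝ] W} (hp : Cn n p z) (hF : Gen n F z) :
    Gen n (fun y => gen (A y) (p y) (F y)) z := hA.act (hF.map hp)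

/-- words of length at most `k` -/
def wd (h : Submodule ℝ (W →L[ℝ] W)) : ℕ → Submodule ℝ (W →L[ℝ] W)
  | 0 => Submodule.span ℝ {1}
  | k + 1 => wd h k ⊔ Submodule.span ℝ {w | ∃ a ∈ h, ∃ v ∈ wd h k, a * v = w}

lemma wd_stable (h : Submodule ℝ (W →L[ℝ] W)) (k : ℕ) :
    wd h (k + 1) = wd h k ∨ k + 1 ≤ finrank ℝ (wd h (k + 1)) := by
  induction k with
  | zero =>
    by_cases e : wd h 1 = wd h 0
    · exact Or.inl e
    · exact Or.inr (Nat.succ_le_of_lt ((Nat.zero_le _).trans_lt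
        (Submodule.finrank_lt_finrank_of_lt (lt_of_le_of_ne le_sup_left (Ne.symm e)))))
  | succ k ih =>
    by_cases e : wd h (k + 2) = wd h (k + 1)
    · exact Or.inl e
    · rcases ih with ih | ih
      · exact absurd (by rw [wd, ih]; exact ih) e
      · exact Or.inr (Nat.succ_le_of_lt (ih.trans_lt
          (Submodule.finrank_lt_finrank_of_lt (lt_of_le_of_ne le_sup_left (Ne.symm e)))))

lemma env_eq (h : Submodule ℝ (W →L[ℝ] W)) :
    (env h).toSubmodule = wd h (finrank ℝ (W →L[ℝ] W)) := by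
  set d := finrank ℝ (W →L[ℝ] W)
  have e : wd h (d + 1) = wd h d := (wd_stable h d).resolve_right fun a =>
    absurd (a.trans (Submodule.finrank_le _)) (by omega)
  have h1 : ∀ k, (1 : W →L[ℝ] W) ∈ wd h k := fun k => by
    induction k with
    | zero => exact Submodule.subset_span rfl
    | succ k ih => exact Submodule.mem_sup_left ih
  refine le_antisymm (fun a ha => ?_) ?_
  · have : ∀ v ∈ wd h d, a * v ∈ wd h d := by
      refine Algebra.adjoin_induction (p := fun a _ => ∀ v ∈ wd h d, a * v ∈ wd h d)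
        (fun x hx v hv => ?_) (fun r v hv => ?_) (fun x y _ _ a b v hv => ?_)
        (fun x y _ _ a b v hv => ?_) ha
      · exact e ▸ Submodule.mem_sup_right (Submodule.subset_span ⟨x, hx, v, hv, rfl⟩)
      · rw [← Algebra.smul_def]; exact Submodule.smul_mem _ _ hv
      · rw [add_mul]; exact add_mem (a v hv) (b v hv)
      · rw [mul_assoc]; exact a _ (b v hv)
    simpa using this 1 (h1 d)
  · induction d with
    | zero => exact Submodule.span_le.2 (by rintro _ rfl; exact (env h).one_mem)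
    | succ k ih =>
      refine sup_le ih (Submodule.span_le.2 ?_)
      rintro _ ⟨a, ha, v, hv, rfl⟩
      exact (env h).mul_mem (Algebra.subset_adjoin ha) (ih hv)

lemma Gen.env (hh : Gen n h z) : Gen n (fun y => (env (h y)).toSubmodule) z := by
  have : ∀ k, Gen n (fun y => wd (h y) k) z := fun k => by
    induction k with
    | zero => exact (SmAt.const _).gen
    | succ k ih => exact ih.sup (hh.bil ih (μ := fun _ => ContinuousLinearMap.mul ℝ _) (Cn.const _))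
  exact (this _).congr (Eventually.of_forall fun y => env_eq _)

/-- the trace as a continuous linear form -/
def trL : (W →L[ℝ] W) →L[ℝ] ℝ :=
  LinearMap.toContinuousLinearMap ((LinearMap.trace ℝ W) ∘ₗ ContinuousLinearMap.coeLM ℝ)

@[simp] lemma trL_apply (a : W →L[ℝ] W) : trL a = tr a := rfl

lemma Cut.rad {A : P → Subalgebra ℝ (W →L[ℝ] W)} (hA : SmAt n (fun y => (A y).toSubmodule) z) :
    Cut n (fun y => rad (A y)) z := by
  let K : P → Submodule ℝ (W →L[ℝ] W) := fun y =>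
    ⨅ v : A y, (trL ∘L (ContinuousLinearMap.mul ℝ _).flip (v : W →L[ℝ] W)).ker
  have hK : ∀ y a, a ∈ K y ↔ ∀ v ∈ (A y).toSubmodule, tr (a * v) = 0 := fun y a => by simp [K]
  refine (hA.cut.inf (Cut.ann (F := K) hA.gen (μ := fun _ =>
    ContinuousLinearMap.compL ℝ _ _ ℝ (trL (W := W)) ∘L ContinuousLinearMap.mul ℝ (W →L[ℝ] W)) (Cn.const _)
    (Eventually.of_forall hK))).congr (Eventually.of_forall fun y => ?_)
  ext a
  rw [Submodule.mem_inf, hK]
  rfl

/-- the stabiliser of a family of subspaces -/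
lemma Cut.stab (hF : SmAt n F z) (e : ∀ᶠ y in 𝓝 z, ∀ a, a ∈ h y ↔ ∀ v ∈ F y, a v ∈ F y) :
    Cut n h z := Cut.trans hF.gen hF.cut (μ := fun _ => ContinuousLinearMap.id ℝ _) (Cn.const _) e

/-- the stabiliser of a trilinear form on `F₁ × F₂ × F₃` -/
lemma Cut.tinv {F₁ F₂ F₃ : P → Submodule ℝ W} (h₁ : Gen n F₁ z) (h₂ : Gen n F₂ z) (h₃ : Gen n F₃ z)
    {t : P → W →L[ℝ] W →L[ℝ] W →L[ℝ] ℝ} (ht : ∀ u v w, Cn n (fun y => t y u v w) z)
    (e : ∀ᶠ y in 𝓝 z, ∀ a, a ∈ h y ↔ TInv (t y) (F₁ y) (F₂ y) (F₃ y) a) : Cut n h z := by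
  obtain ⟨k₁, s₁, a₁, b₁⟩ := h₁.exists_span
  obtain ⟨k₂, s₂, a₂, b₂⟩ := h₂.exists_span
  obtain ⟨k₃, s₃, a₃, b₃⟩ := h₃.exists_span
  let ap : W → (W →L[ℝ] W) →L[ℝ] W := fun v => ContinuousLinearMap.apply ℝ W v
  let A : P → (W →L[ℝ] W) →L[ℝ] (Fin k₁ × Fin k₂ × Fin k₃ → ℝ) := fun y =>
    ContinuousLinearMap.pi fun i =>
      ((t y).flip (s₂ i.2.1 y)).flip (s₃ i.2.2 y) ∘L ap (s₁ i.1 y) +
      (t y (s₁ i.1 y)).flip (s₃ i.2.2 y) ∘L ap (s₂ i.2.1 y) +
      t y (s₁ i.1 y) (s₂ i.2.1 y) ∘L ap (s₃ i.2.2 y)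
  have hA : ∀ y a i, A y a i = t y (a (s₁ i.1 y)) (s₂ i.2.1 y) (s₃ i.2.2 y) +
      t y (s₁ i.1 y) (a (s₂ i.2.1 y)) (s₃ i.2.2 y) +
      t y (s₁ i.1 y) (s₂ i.2.1 y) (a (s₃ i.2.2 y)) := fun _ _ _ => rfl
  refine (Cut.ker (A := A) (Cn.of_apply fun a => ?_)).congr ?_
  · filter_upwards [Cn.of_apply₃ ht, eventually_all.2 a₁, eventually_all.2 a₂, eventually_all.2 a₃] with
      y c c₁ c₂ c₃
    refine contDiffAt_pi.2 fun i => ?_
    simp only [hA]
    exact ((((c.clm_apply (contDiffAt_const.clm_apply (c₁ _))).clm_apply (c₂ _)).clm_apply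
      (c₃ _)).add (((c.clm_apply (c₁ _)).clm_apply (contDiffAt_const.clm_apply (c₂ _))).clm_apply
      (c₃ _))).add (((c.clm_apply (c₁ _)).clm_apply (c₂ _)).clm_apply
      (contDiffAt_const.clm_apply (c₃ _)))
  · filter_upwards [e, b₁, b₂, b₃] with y c c₁ c₂ c₃
    ext a
    rw [c, LinearMap.mem_ker, c₁, c₂, c₃]
    refine ⟨fun h => funext fun i => h _ (Submodule.subset_span ⟨_, rfl⟩) _
      (Submodule.subset_span ⟨_, rfl⟩) _ (Submodule.subset_span ⟨_, rfl⟩), fun h u hu v hv w hw => ?_⟩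
    induction hu using Submodule.span_induction with
    | zero => simp
    | add x x' _ _ p q => simp only [map_add, add_apply]; linarith
    | smul r x _ p => simp only [map_smul, smul_apply, smul_eq_mul]; grind
    | mem u hu =>
      induction hv using Submodule.span_induction with
      | zero => simp
      | add x x' _ _ p q => simp only [map_add, add_apply]; linarith
      | smul r x _ p => simp only [map_smul, smul_apply, smul_eq_mul]; grind
      | mem v hv =>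
        induction hw using Submodule.span_induction with
        | zero => simp
        | add x x' _ _ p q => simp only [map_add]; linarith
        | smul r x _ p => simp only [map_smul, smul_eq_mul]; grind
        | mem w hw =>
          obtain ⟨i, rfl⟩ := hu
          obtain ⟨j, rfl⟩ := hv
          obtain ⟨l, rfl⟩ := hw
          exact congrFun h (i, j, l)

end Alg

end Crest.Agent.N221.SB
end
private theorem rz_10a91d5d64 : type_of% @_root_.Crest.Agent.N221.SB.wd.eq_def := @_root_.Crest.Agent.N221.SB.wd.eq_def -- L262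
private theorem rz_7c1eafceeb : type_of% @_root_.Crest.Agent.N221.SB.wd.eq_1 := @_root_.Crest.Agent.N221.SB.wd.eq_1 -- L262
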