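import Crest.Agent.N221.Hu.SB2
import Crest.Agent.N221.Hm.Defs
import Crest.Agent.N221.K.LA

/-!
Row 221, block Hu: the kit of `Hm/Defs` (`RkS`, `ExtS`, `KerS`, `LogS`, `Log3S`) and functoriality of
the logarithm of the hyperbolic part (invariant subspaces, bilinear and multilinear maps).
-/

set_option autoImplicit false
set_option linter.unusedSectionVars false
set_option linter.unusedVariables false
set_option maxSynthPendingDepth 3

open Set Filter Topology Module
open scoped ContDiff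

noncomputable section

namespace Crest.Agent.N221.Hm

open Hu SB K K.LA

section Kit
variable {E F : Type} [NormedAddCommGroup E] [NormedSpace ℝ E] [NormedAddCommGroup F]
  [NormedSpace ℝ F] [FiniteDimensional ℝ F] {M : E → Submodule ℝ F} {O : Set E} {z : E}

lemma Sm.smAt (h : Sm M O) (hO : IsOpen O) (hz : z ∈ O) : SmAt ∞ M z := by
  obtain ⟨p, h1, h2⟩ := h
  exact ⟨p, Cn.of_on h1 hO hz, by filter_upwards [hO.mem_nhds hz] with y hy using h2 y hy⟩

lemma sm_of_smAt (h : SmAt ∞ M z) (hO : IsOpen O) (hz : z ∈ O) :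
    ∃ O', Sub O' O ∧ z ∈ O' ∧ Sm M O' := by
  obtain ⟨V, a, b, c, -, -, p, d, e⟩ := h.shrink hO hz
  exact ⟨V, ⟨a, ⟨z, b⟩, c⟩, b, p, d, e⟩


lemma sm_of_cut (hO : IsOpen O) (hne : O.Nonempty) (h : ∀ y ∈ O, Cut ∞ M y) :
    ∃ O', Sub O' O ∧ Sm M O' := by
  obtain ⟨y, hy, h⟩ := Cut.exists_smAt hO hne h
  obtain ⟨V, a, -, b⟩ := sm_of_smAt h hO hy
  exact ⟨V, a, b⟩

end Kit


theorem kerS : KerS := fun E F G _ _ _ _ _ _ _ _ _ T M O hO hne hT h =>
  sm_of_cut hO hne fun y hy => (Cut.ker (Cn.of_on hT hO hy)).congr <| by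
    filter_upwards [hO.mem_nhds hy] with x hx using Submodule.ext (h x hx)


section Log
variable {E F G : Type} [NormedAddCommGroup E] [NormedSpace ℝ E] [FiniteDimensional ℝ E]
  [NormedAddCommGroup F] [NormedSpace ℝ F] [FiniteDimensional ℝ F]
  [NormedAddCommGroup G] [NormedSpace ℝ G] [FiniteDimensional ℝ G]
  {L : E ≃L[ℝ] E} {D : E →L[ℝ] E}

/-- a spanning family of common "eigenvectors" is enough -/
lemma isLog_of_span (h : ⊤ ≤ Submodule.span ℝ {v | ∃ r, Gr L r v ∧ D v = r • v}) : IsLog L D := by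
  intro s v hv
  let M : ℝ → Submodule ℝ E := fun s => GS L s ⊓ LinearMap.eqLocus D.toLinearMap (s • LinearMap.id)
  have e : M = GS L := by
    refine ((indep L).le_iff_eq_of_iSup_eq_top (top_unique (h.trans (Submodule.span_le.2 ?_)))).1
      fun s => inf_le_left
    rintro w ⟨r, h1, h2⟩
    exact Submodule.mem_iSup_of_mem r ⟨h1, h2⟩
  exact ((congrFun e s).ge hv).2

lemma exists_isLog (L : E ≃L[ℝ] E) : ∃ D, IsLog L D := by
  obtain ⟨b, r, hr⟩ := exists_gr_basis L
  refine ⟨b.constrL fun i => r i • b i, isLog_of_span ?_⟩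
  rw [← b.span_eq]
  refine Submodule.span_mono ?_
  rintro _ ⟨i, rfl⟩
  exact ⟨r i, hr i, b.constrL_basis _ i⟩

lemma IsLog.unique {D' : E →L[ℝ] E} (h : IsLog L D) (h' : IsLog L D') : D = D' := by
  obtain ⟨b, r, hr⟩ := exists_gr_basis L
  exact ContinuousLinearMap.coe_injective (b.ext fun i => (h _ _ (hr i)).trans (h' _ _ (hr i)).symm)

/-- the restriction to an invariant subspace -/
def res (L : E ≃L[ℝ] E) (N : Submodule ℝ E) (h : ∀ v ∈ N, L v ∈ N) : N ≃L[ℝ] N :=
  (LinearEquiv.ofInjectiveEndo ((L : E →ₗ[ℝ] E).restrict h) fun a b e =>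
    Subtype.ext (L.injective (congrArg Subtype.val e))).toContinuousLinearEquiv


lemma symm_mem {N : Submodule ℝ E} (h : ∀ v ∈ N, L v ∈ N) : ∀ v ∈ N, L.symm v ∈ N := fun v hv => by
  obtain ⟨w, e⟩ := (res L N h).surjective ⟨v, hv⟩
  rw [show v = L w from (congrArg Subtype.val e).symm, L.symm_apply_apply]
  exact w.2

/-- an invariant subspace has a basis of vectors with a growth rate -/
lemma basis_of_inv {N : Submodule ℝ E} (h : ∀ v ∈ N, L v ∈ N) :
    ∃ (b : Basis (Fin (finrank ℝ N)) ℝ N) (r : Fin (finrank ℝ N) → ℝ), ∀ i, Gr L (r i) (b i) := by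
  obtain ⟨b, r, hr⟩ := exists_gr_basis (res L N h)
  exact ⟨b, r, fun i => LA.Gr.map (hr i) N.subtypeL fun _ => rfl⟩

lemma inv_induction {N : Submodule ℝ E} (h : ∀ v ∈ N, L v ∈ N) {M : Submodule ℝ E}
    (hM : ∀ r, ∀ v ∈ N, Gr L r v → v ∈ M) : N ≤ M := by
  obtain ⟨b, r, hr⟩ := basis_of_inv h
  intro v hv
  have := congrArg Subtype.val (b.sum_repr ⟨v, hv⟩)
  rw [← show _ = v from this, Submodule.coe_sum]
  exact sum_mem fun i _ => M.smul_mem _ (hM _ _ (b i).2 (hr i))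

/-- an `L`-invariant subspace is `D`-invariant -/
lemma IsLog.inv (hD : IsLog L D) {N : Submodule ℝ E} (h : ∀ v ∈ N, L v ∈ N) : ∀ v ∈ N, D v ∈ N :=
  inv_induction h (M := N.comap (D : E →ₗ[ℝ] E)) fun r v hv hr => by
    change D v ∈ N
    rw [hD r v hr]
    exact N.smul_mem _ hv

/-- intertwining maps -/
lemma IsLog.map (hD : IsLog L D) {L' : F ≃L[ℝ] F} {D' : F →L[ℝ] F} (hD' : IsLog L' D')
    (T : E →L[ℝ] F) (e : ∀ v, T (L v) = L' (T v)) (v : E) : T (D v) = D' (T v) :=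
  inv_induction (L := L) (N := ⊤) (fun _ _ => trivial)
    (M := LinearMap.eqLocus (T ∘L D).toLinearMap (D' ∘L T).toLinearMap) (fun r w _ hr => by
      change T (D w) = D' (T w)
      rw [hD r w hr, hD' r _ (LA.Gr.map hr T e), map_smul]) Submodule.mem_top

/-- a fixed vector with a nonzero rate vanishes -/
lemma res0 {x a : ℝ} (h0 : 0 ≤ x) (h : ∀ ε : ℝ, 0 < ε → ∃ C : ℝ, ∀ j : ℕ,
    x ≤ C * Real.exp ((a + ε) * j) ∧ x ≤ C * Real.exp ((-a + ε) * j)) : a = 0 ∨ x = 0 := by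
  by_cases ha : a = 0
  · exact Or.inl ha
  obtain ⟨C, hC⟩ := h (|a| / 2) (by positivity)
  refine Or.inr (le_antisymm (le_zero (K := C) (c := Real.exp (-(|a| / 2))) (Real.exp_pos _).le
    (Real.exp_lt_one_iff.2 (by have := abs_pos.2 ha; linarith)) fun j => ?_) h0)
  rw [← Real.exp_nat_mul, mul_comm (j : ℝ)]
  rcases le_total a 0 with h | h
  · convert (hC j).1 using 4
    rw [abs_of_nonpos h]; ring
  · convert (hC j).2 using 4
    rw [abs_of_nonneg h]; ring

lemma _root_.Crest.Agent.N221.K.Gr.symm {r : ℝ} {v : E} (h : Gr L r v) : Gr L.symm (-r) v :=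
  fun ε hε => by
    obtain ⟨C, hC⟩ := h ε hε
    exact ⟨C, fun j => ⟨(hC j).2, by simpa using (hC j).1⟩⟩

lemma Bd.bil {f : E → E} {g : F → F} {k : G → G} {a b : ℝ} {v : E} {w : F} (h : Bd f a v)
    (h' : Bd g b w) (B : E →L[ℝ] F →L[ℝ] G) (e : ∀ j, k^[j] (B v w) = B (f^[j] v) (g^[j] w)) :
    Bd k (a + b) (B v w) := by
  obtain ⟨C, h0, h⟩ := h
  obtain ⟨C', h0', h'⟩ := h'
  refine ⟨‖B‖ * C * C', by positivity, fun j => ?_⟩
  rw [e, add_mul, Real.exp_add]
  refine (B.le_opNorm₂ _ _).trans ?_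
  calc _ ≤ ‖B‖ * (C * Real.exp (a * j)) * (C' * Real.exp (b * j)) := by gcongr; exacts [h j, h' j]
    _ = _ := by ring

/-- rates add under equivariant bilinear maps -/
lemma _root_.Crest.Agent.N221.K.Gr.bil {L' : F ≃L[ℝ] F} {L'' : G ≃L[ℝ] G} {r s : ℝ} {v : E} {w : F}
    (h : Gr L r v) (h' : Gr L' s w) (B : E →L[ℝ] F →L[ℝ] G)
    (e : ∀ v w, B (L v) (L' w) = L'' (B v w)) : Gr L'' (r + s) (B v w) := by
  refine gr_iff.2 fun ε hε => ?_
  obtain ⟨a, b⟩ := gr_iff.1 h (ε / 2) (by positivity)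
  obtain ⟨a', b'⟩ := gr_iff.1 h' (ε / 2) (by positivity)
  refine ⟨(Bd.bil a a' B fun j => ?_).mono (by linarith), (Bd.bil b b' B fun j => ?_).mono
    (by linarith)⟩
  · induction j with
    | zero => rfl
    | succ j ih => simp only [Function.iterate_succ_apply', ih, e]
  · induction j with
    | zero => rfl
    | succ j ih =>
      simp only [Function.iterate_succ_apply', ih]
      rw [L''.symm_apply_eq, ← e, L.apply_symm_apply, L'.apply_symm_apply]

/-- the logarithm is a derivation of every equivariant bilinear map -/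
lemma IsLog.bil (hD : IsLog L D) {L' : F ≃L[ℝ] F} {D' : F →L[ℝ] F} (hD' : IsLog L' D')
    {L'' : G ≃L[ℝ] G} {D'' : G →L[ℝ] G} (hD'' : IsLog L'' D'') (B : E →L[ℝ] F →L[ℝ] G)
    (e : ∀ v w, B (L v) (L' w) = L'' (B v w)) (v : E) (w : F) :
    B (D v) w + B v (D' w) = D'' (B v w) := by
  refine inv_induction (L := L) (N := ⊤) (fun _ _ => trivial) (M := LinearMap.eqLocus
    (B.flip w ∘L D + B.flip (D' w)).toLinearMap (D'' ∘L B.flip w).toLinearMap)
    (fun r v _ hr => ?_) Submodule.mem_top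
  refine inv_induction (L := L') (N := ⊤) (fun _ _ => trivial) (M := LinearMap.eqLocus
    (B (D v) + B v ∘L D').toLinearMap (D'' ∘L B v).toLinearMap) (fun s w _ hs => ?_)
    (Submodule.mem_top (x := w))
  change B (D v) w + B v (D' w) = D'' (B v w)
  rw [hD r v hr, hD' s w hs, hD'' _ _ (hr.bil hs B e), add_smul]
  simp

lemma isLog_refl : IsLog (ContinuousLinearEquiv.refl ℝ E) 0 := fun r v h => by
  have e : ∀ j : ℕ, (⇑(ContinuousLinearEquiv.refl ℝ E))^[j] v = v := fun j =>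
    Function.iterate_fixed rfl j
  rcases res0 (norm_nonneg v) (a := r) fun ε hε => (h ε hε).imp fun C hC j => by
    simpa [e] using hC j with h | h
  · simp [h]
  · simp [norm_eq_zero.1 h]

/-- an invariant bilinear form is killed by the logarithm (`D ∈ sp`) -/
lemma IsLog.form (hD : IsLog L D) (B : E →L[ℝ] E →L[ℝ] ℝ) (e : ∀ v w, B (L v) (L w) = B v w)
    (v w : E) : B (D v) w + B v (D w) = 0 := hD.bil hD isLog_refl B e v w

/-- multilinear maps: `R` is the pull back by `L` on a space `F` of multilinear maps -/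
lemma IsLog.pull {ι : Type} [Fintype ι] [DecidableEq ι] (hD : IsLog L D) {R : F ≃L[ℝ] F}
    {D' : F →L[ℝ] F} (ev : F →L[ℝ] ContinuousMultilinearMap ℝ (fun _ : ι => E) ℝ)
    (hev : Function.Injective ev) (e : ∀ θ v, ev (R θ) v = ev θ fun i => L (v i))
    (e' : ∀ θ v, ev (D' θ) v = ∑ i, ev θ (Function.update v i (D (v i)))) : IsLog R D' := by
  intro s θ hθ
  obtain ⟨b, r, hr⟩ := exists_gr_basis L
  refine hev (ContinuousMultilinearMap.toMultilinearMap_injective
    (Basis.ext_multilinear (fun _ => b) fun k => ?_))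
  change ev (D' θ) (fun i => b (k i)) = ev (s • θ) fun i => b (k i)
  have i1 : ∀ (j : ℕ) θ v, ev ((⇑R)^[j] θ) (fun i => (⇑L.symm)^[j] (v i)) = ev θ v := fun j => by
    induction j with
    | zero => exact fun _ _ => rfl
    | succ j ih =>
      intro θ v
      rw [Function.iterate_succ_apply', e]
      simpa only [Function.iterate_succ_apply', L.apply_symm_apply] using ih θ v
  have i2 : ∀ (j : ℕ) θ v, ev ((⇑R.symm)^[j] θ) (fun i => (⇑L)^[j] (v i)) = ev θ v := fun j => by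
    induction j with
    | zero => exact fun _ _ => rfl
    | succ j ih =>
      intro θ v
      simp only [Function.iterate_succ_apply']
      rw [← e, R.apply_symm_apply, ih]
  have bd : ∀ {f : F → F} {g : E → E} {a : ℝ} {c : ι → ℝ}, Bd f a θ → (∀ i, Bd g (c i) (b (k i))) →
      (∀ (j : ℕ) θ v, ev (f^[j] θ) (fun i => g^[j] (v i)) = ev θ v) → ∃ C, 0 ≤ C ∧ ∀ j : ℕ,
      ‖ev θ fun i => b (k i)‖ ≤ C * Real.exp ((a + ∑ i, c i) * j) := by
    rintro f g a c ⟨C, h0, h⟩ h' i0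
    choose C' h0' h' using h'
    refine ⟨‖ev‖ * C * ∏ i, C' i, by have := Finset.prod_nonneg fun i (_ : i ∈ Finset.univ) => h0' i
                                     positivity, fun j => ?_⟩
    rw [← i0 j]
    refine (ContinuousMultilinearMap.le_opNorm _ _).trans ?_
    calc _ ≤ ‖ev‖ * (C * Real.exp (a * j)) * ∏ i, (C' i * Real.exp (c i * j)) := by
          gcongr with i
          exacts [(ev.le_opNorm _).trans (by gcongr; exact h j), h' i j]
      _ = _ := by
        rw [Finset.prod_mul_distrib, ← Real.exp_sum, add_mul, Real.exp_add, Finset.sum_mul]; ring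
  have key := res0 (norm_nonneg (ev θ fun i => b (k i))) (a := s - ∑ i, r (k i)) fun ε hε => by
    have hδ : 0 < ε / (Fintype.card ι + 1) := by positivity
    obtain ⟨C, h0, h⟩ := bd (gr_iff.1 hθ _ hδ).1 (fun i => (gr_iff.1 (hr (k i)) _ hδ).2) i1
    obtain ⟨C', h0', h'⟩ := bd (gr_iff.1 hθ _ hδ).2 (fun i => (gr_iff.1 (hr (k i)) _ hδ).1) i2
    refine ⟨C + C', fun j => ⟨(h j).trans ?_, (h' j).trans ?_⟩⟩
    · refine mul_le_mul (by linarith) (le_of_eq ?_) (Real.exp_pos _).le (by linarith)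
      simp only [Finset.sum_add_distrib, Finset.sum_neg_distrib, Finset.sum_const, Finset.card_univ,
        nsmul_eq_mul]
      congr 2; field_simp; ring
    · refine mul_le_mul (by linarith) (le_of_eq ?_) (Real.exp_pos _).le (by linarith)
      simp only [Finset.sum_add_distrib, Finset.sum_const, Finset.card_univ, nsmul_eq_mul]
      congr 2; field_simp; ring
  have e2 : ∀ i, ev θ (Function.update (fun i => b (k i)) i (D (b (k i)))) =
      r (k i) * ev θ fun i => b (k i) := fun i => by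
    rw [hD _ _ (hr _), ContinuousMultilinearMap.map_update_smul, Function.update_eq_self i
      (fun i => b (k i)), smul_eq_mul]
  rw [e', Finset.sum_congr rfl fun i _ => e2 i, ← Finset.sum_mul, map_smul]
  rcases key with h | h
  · rw [← sub_eq_zero.1 h]; rfl
  · simp [norm_eq_zero.1 h]

lemma rate_neg {C θ r : ℝ} {v : E} (h0 : 0 ≤ θ) (h1 : θ < 1) (hv : v ≠ 0) (hr : Gr L r v)
    {N : Submodule ℝ E} (hN : ∀ w ∈ N, L w ∈ N) (hm : v ∈ N)
    (h : ∀ (j : ℕ), ∀ w ∈ N, ‖(⇑L)^[j] w‖ ≤ C * θ ^ j * ‖w‖) : r < 0 := by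
  by_contra! hr0
  set t := Real.log ((1 + θ) / 2) with ht
  have t0 : t < 0 := Real.log_neg (by linarith) (by linarith)
  refine hv (kill (L := L) (s := r) hr ⟨t, by linarith, |C| * ‖v‖, by positivity, fun j => ?_⟩)
  rw [mul_comm t, Real.exp_nat_mul, ht, Real.exp_log (by linarith)]
  calc _ ≤ C * θ ^ j * ‖v‖ := h j v hm
    _ ≤ |C| * ((1 + θ) / 2) ^ j * ‖v‖ := by gcongr; exacts [le_abs_self C, by linarith]
    _ = _ := by ring

end Log

theorem log3S : Log3S := fun E _ _ _ L D t N₁ N₂ N₃ hD h₁ h₂ h₃ ht u hu v hv w hw => by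
  revert u
  refine inv_induction h₁ (M := ((t.flip v).flip w ∘L D + (t.flip (D v)).flip w +
    (t.flip v).flip (D w)).ker) fun a u hu ha => ?_
  change t (D u) v w + t u (D v) w + t u v (D w) = 0
  revert v
  refine inv_induction h₂ (M := ((t (D u)).flip w + (t u).flip w ∘L D + (t u).flip (D w)).ker)
    fun b v hv hb => ?_
  change t (D u) v w + t u (D v) w + t u v (D w) = 0
  revert w
  refine inv_induction h₃ (M := (t (D u) v + t u (D v) + t u v ∘L D).ker) fun c w hw hc => ?_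
  change t (D u) v w + t u (D v) w + t u v (D w) = 0
  have it : ∀ (L : E ≃L[ℝ] E), (∀ v ∈ N₁, L v ∈ N₁) → (∀ v ∈ N₂, L v ∈ N₂) → (∀ v ∈ N₃, L v ∈ N₃) →
      (∀ u ∈ N₁, ∀ v ∈ N₂, ∀ w ∈ N₃, t (L u) (L v) (L w) = t u v w) → ∀ {a b c : ℝ}, Bd L a u →
      Bd L b v → Bd L c w → ∃ C, 0 ≤ C ∧ ∀ j : ℕ, ‖t u v w‖ ≤ C * Real.exp ((a + b + c) * j) := by
    rintro L h₁ h₂ h₃ ht a b c ⟨A, a0, ha⟩ ⟨B, b0, hb⟩ ⟨C, c0, hc⟩
    refine ⟨‖t‖ * A * B * C, by positivity, fun j => ?_⟩
    have e : (⇑L)^[j] u ∈ N₁ ∧ (⇑L)^[j] v ∈ N₂ ∧ (⇑L)^[j] w ∈ N₃ ∧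
        t ((⇑L)^[j] u) ((⇑L)^[j] v) ((⇑L)^[j] w) = t u v w := by
      induction j with
      | zero => exact ⟨hu, hv, hw, rfl⟩
      | succ j ih =>
        simp only [Function.iterate_succ_apply']
        exact ⟨h₁ _ ih.1, h₂ _ ih.2.1, h₃ _ ih.2.2.1, (ht _ ih.1 _ ih.2.1 _ ih.2.2.1).trans ih.2.2.2⟩
    rw [← e.2.2.2]
    refine ((t _).le_opNorm₂ _ _).trans ?_
    calc _ ≤ ‖t‖ * (A * Real.exp (a * j)) * (B * Real.exp (b * j)) * (C * Real.exp (c * j)) := by
          gcongr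
          exacts [(t.le_opNorm _).trans (by gcongr; exact ha j), hb j, hc j]
      _ = _ := by simp only [add_mul, Real.exp_add]; ring
  have key := res0 (norm_nonneg (t u v w)) (a := a + b + c) fun ε hε => by
    have hδ : 0 < ε / 3 := by positivity
    obtain ⟨C, h0, h⟩ := it L h₁ h₂ h₃ ht (gr_iff.1 ha _ hδ).1 (gr_iff.1 hb _ hδ).1
      (gr_iff.1 hc _ hδ).1
    obtain ⟨C', h0', h'⟩ := it L.symm (symm_mem h₁) (symm_mem h₂) (symm_mem h₃)
      (fun u hu v hv w hw => by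
        simpa using (ht _ (symm_mem h₁ u hu) _ (symm_mem h₂ v hv) _ (symm_mem h₃ w hw)).symm)
      (gr_iff.1 ha _ hδ).2 (gr_iff.1 hb _ hδ).2 (gr_iff.1 hc _ hδ).2
    refine ⟨C + C', fun j => ⟨(h j).trans ?_, (h' j).trans ?_⟩⟩ <;>
    · refine mul_le_mul (by linarith) (le_of_eq ?_) (Real.exp_pos _).le (by linarith)
      congr 2; ring
  rw [hD a u ha, hD b v hb, hD c w hc]
  simp only [map_smul, smul_apply, smul_eq_mul]
  rcases key with h | h
  · linear_combination t u v w * h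
  · simp [norm_eq_zero.1 h]

theorem logS : LogS := fun E _ _ _ L p hp e ⟨C, θ, h0, h1, h⟩ => by
  obtain ⟨D, hD⟩ := exists_isLog L
  have pp : ∀ v, p (p v) = p v := fun v => congrArg (fun f : E →L[ℝ] E => f v) hp
  let U : Submodule ℝ E := LinearMap.eqLocus p.toLinearMap LinearMap.id
  have hU : ∀ v ∈ U, L v ∈ U := fun v (hv : p v = v) => (e v).trans (congrArg L hv)
  have hS : ∀ v ∈ p.ker, L v ∈ p.ker := fun v (hv : p v = 0) => by
    change p (L v) = 0
    rw [e, hv, map_zero]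
  have hc : IsCompl U p.ker := by
    refine ⟨Submodule.disjoint_def.2 fun v (a : p v = v) (b : p v = 0) => a.symm.trans b,
      codisjoint_iff.2 (top_unique fun v _ => Submodule.mem_sup.2 ⟨p v, pp v, v - p v, ?_, by simp⟩)⟩
    change p (v - p v) = 0
    rw [map_sub, pp, sub_self]
  obtain ⟨b, r, hr⟩ := basis_of_inv hU
  obtain ⟨b', r', hr'⟩ := basis_of_inv hS
  refine ⟨D, hD, _, inferInstance, (b.prod b').map (Submodule.prodEquivOfIsCompl _ _ hc),
    Sum.elim r r', fun i => ?_⟩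
  rcases i with i | i
  · have e1 : ((b.prod b').map (Submodule.prodEquivOfIsCompl _ _ hc)) (Sum.inl i) = b i := by simp
    rw [e1]
    refine ⟨hD _ _ (hr i), Or.inl ⟨?_, (b i).2⟩⟩
    have := rate_neg h0 h1 (by simpa using b.ne_zero i) (hr i).symm (symm_mem hU) (b i).2
      fun j w hw => (h j w).2 hw
    simpa using this
  · have e1 : ((b.prod b').map (Submodule.prodEquivOfIsCompl _ _ hc)) (Sum.inr i) = b' i := by simp
    rw [e1]
    exact ⟨hD _ _ (hr' i), Or.inr ⟨rate_neg h0 h1 (by simpa using b'.ne_zero i) (hr' i) hS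
      (b' i).2 fun j w hw => (h j w).1 hw, (b' i).2⟩⟩

end Crest.Agent.N221.Hm
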